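import Vale.Agent.Lib.P015.Defs
import Vale.Agent.Lib.P015.Bridges

open Vale.Agent.Lib.P015 in
/-- Moats up to a tiny set of bridges: for every `D` and `A`, for all large `R`, removing at most
`R / (log R)^A` Gaussian primes from `G_D` cuts the disc of radius `R` off from the exterior of the
disc of radius `3 R`. -/
theorem Vale.Agent.Results.P015.NearMoat.result (D : ℝ) (A : ℕ) :
    ∃ R0 : ℝ, ∀ R ≥ R0, ∃ W : Finset GaussianInt,
      (W.card : ℝ) ≤ R / Real.log R ^ A ∧ (∀ u ∈ W, Irreducible u) ∧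
      ∀ z w : {z : GaussianInt // Irreducible z},
        (z.1.norm : ℝ) ≤ R ^ 2 → 9 * R ^ 2 ≤ (w.1.norm : ℝ) →
        ∀ p : (moatGraph D).Walk z w, ∃ v ∈ p.support, v.1 ∈ W :=
  near_moat D A
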