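import Vale.Agent.Results.P015.ClusterDensity
import Vale.Agent.Results.P015.NearMoat

open Vale.Agent.Lib.P015 in
/-- For every `D`: (1) for `k ≥ 1` the number of Gaussian primes of norm at most `x` whose connected component in `G_D` has at
least `k` vertices is `O(x (log log x / log x)^k)`; (2) moats up to a tiny set of bridges: for every `A` and all large `R`,
removing at most `R / (log R)^A` Gaussian primes from `G_D` cuts the disc of radius `R` off from the exterior of the disc of
radius `3 R`. -/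
theorem Vale.Agent.Results.P015.A0Conj.result :
    (∀ (D : ℝ) (k : ℕ) (_ : 1 ≤ k),
      ∃ C x0 : ℝ, ∀ x ≥ x0,
        {z ∈ clusterPrimes D k | (z.norm : ℝ) ≤ x}.Finite ∧
        (({z ∈ clusterPrimes D k | (z.norm : ℝ) ≤ x}.ncard : ℕ) : ℝ) ≤
          C * x * (Real.log (Real.log x) / Real.log x) ^ k) ∧
    (∀ (D : ℝ) (A : ℕ),
      ∃ R0 : ℝ, ∀ R ≥ R0, ∃ W : Finset GaussianInt,
        (W.card : ℝ) ≤ R / Real.log R ^ A ∧ (∀ u ∈ W, Irreducible u) ∧
        ∀ z w : {z : GaussianInt // Irreducible z},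
          (z.1.norm : ℝ) ≤ R ^ 2 → 9 * R ^ 2 ≤ (w.1.norm : ℝ) →
          ∀ p : (moatGraph D).Walk z w, ∃ v ∈ p.support, v.1 ∈ W) :=
  ⟨Vale.Agent.Results.P015.ClusterDensity.result, Vale.Agent.Results.P015.NearMoat.result⟩
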