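import Vale.Agent.Lib.P015.Defs
import Vale.Agent.Lib.P015.Main

open Vale.Agent.Lib.P015 in
/-- For every `D` and `k ≥ 1` the number of Gaussian primes of norm at most `x` whose connected
component in `G_D` has at least `k` vertices is `O(x (log log x / log x)^k)`. -/
theorem Vale.Agent.Results.P015.ClusterDensity.result (D : ℝ) (k : ℕ) (hk : 1 ≤ k) :
    ∃ C x0 : ℝ, ∀ x ≥ x0,
      {z ∈ clusterPrimes D k | (z.norm : ℝ) ≤ x}.Finite ∧
      (({z ∈ clusterPrimes D k | (z.norm : ℝ) ≤ x}.ncard : ℕ) : ℝ) ≤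
        C * x * (Real.log (Real.log x) / Real.log x) ^ k :=
  cluster_density D k hk
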